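import Vale.Agent.P284.H206.K.B8
import Vale.Agent.P284.H395.StkL
import Vale.Agent.P284.H451.D.Cone
import Vale.Agent.P284.H224.D.Defs

/-!
# P284, project D (helper661): definitions

`X` compact Kähler with metric `W`, `s_0, …, s_R` sections of `L^k`, `F : ℂ^R → ℂ^(R+1)` entire.
The closed forms `C W + i∂∂̄ lam` on `X × ℂ^R` and their integrals along `X`.
-/

open scoped Manifold ContDiff Topology ComplexOrder ComplexConjugate Matrix
open Filter Set MeasureTheory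

noncomputable section

namespace Vale.Agent.P284.H661.D

open Vale.Agent.P272.K Vale.Agent.P284.H248 Vale.Agent.P284.H206.K Vale.Agent.P284.H224.D

/-- the coefficient of `τ ^ s` in `det (A + τ B)` (real part) -/
def cfd {N : ℕ} (s : ℕ) (A B : Matrix (Fin N) (Fin N) ℂ) : ℝ :=
  ∑ l : Fin (N + 1), Vale.Agent.P284.H395.cf N s l * (A + (((l : ℕ) : ℝ) : ℂ) • B).det.re

section
variable {n R : ℕ} {X : Type} [TopologicalSpace X]

/-- the form `C W + i∂∂̄ lam` on `X × ℂ_{z_j}` -/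
def KJ (C : ℝ) (W : Chart n X → Cm n → Matrix (Fin n) (Fin n) ℂ) (lam : X → Cm R → ℝ)
    (e : Chart n X) (y : Cm n) (z : Cm R) (j : Fin R) : Matrix (Fin (n + 1)) (Fin (n + 1)) ℂ :=
  (C : ℂ) • hatM (W e y) + HB lam e z j y

/-- the form `C W + i∂∂̄ ((1 - t) psi + t lam)` on `X` -/
def MT (C : ℝ) (W : Chart n X → Cm n → Matrix (Fin n) (Fin n) ℂ) (psi : X → ℝ)
    (lam : X → Cm R → ℝ) (t : ℝ) (e : Chart n X) (y : Cm n) (z : Cm R) :
    Matrix (Fin n) (Fin n) ℂ :=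
  (C : ℂ) • W e y + cHess (fun y => psi (e.symm y) + t * (lam (e.symm y) z - psi (e.symm y))) y

variable [ChartedSpace (Cm n) X]

variable [T2Space X] [CompactSpace X] [IsManifold 𝓘(ℂ, Cm n) ω X]

/-- `H(z) = Σ_j ∫_X (C W + i∂∂̄ lam)^(n+1-d₁) ∧ W^(d₁)` on `X × ℂ_{z_j}`, suitably normalised -/
def Hz (d₁ : ℕ) (C : ℝ) (W : Chart n X → Cm n → Matrix (Fin n) (Fin n) ℂ) (lam : X → Cm R → ℝ)
    (z : Cm R) : ℝ :=
  ∑ j : Fin R, INT.intX fun e y => cfd d₁ (KJ C W lam e y z j) (hatM (W e y))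

/-- the potential -/
def uz (d₁ : ℕ) (C : ℝ) (W : Chart n X → Cm n → Matrix (Fin n) (Fin n) ℂ) (psi : X → ℝ)
    (lam : X → Cm R → ℝ) (z : Cm R) : ℝ :=
  ∫ t in (0 : ℝ)..1, INT.intX fun e y =>
    (lam (e.symm y) z - psi (e.symm y)) * cfd d₁ (MT C W psi lam t e y z) (W e y)

end

/-! ### the functions -/

/-- `|v|²` -/
def nF {m : ℕ} (v : Cm m) : ℝ := ∑ a, ‖v a‖ ^ 2

section
variable {n R k : ℕ} {X : Type} [TopologicalSpace X] [ChartedSpace (Cm n) X]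
  {L : LineBundle n X}

/-- `|s|²_h` -/
def nS (P : LPart L) (s : Fin (R + 1) → Sec L k) (x : X) : ℝ := ∑ a, GG P (s a) x

/-- `|s ∧ v|²_h` -/
def nW (P : LPart L) (s : Fin (R + 1) → Sec L k) (v : Cm (R + 1)) (x : X) : ℝ :=
  (1 / 2) * ∑ a, ∑ b, ‖(s a).f (ixn L x) x * v b - (s b).f (ixn L x) x * v a‖ ^ 2 /
    HH P (ixn L x) x ^ k

/-- `log (|s ∧ F|² + ε |s|² |F|² + ε² (1 + |F|²))` -/
def lamE (ε : ℝ) (P : LPart L) (s : Fin (R + 1) → Sec L k) (F : Cm R → Cm (R + 1)) (x : X)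
    (z : Cm R) : ℝ :=
  Real.log (nW P s (F z) x + ε * nS P s x * nF (F z) + ε ^ 2 * (1 + nF (F z)))

/-- `log (|s|² + ε²)` -/
def psiE (ε : ℝ) (P : LPart L) (s : Fin (R + 1) → Sec L k) (x : X) : ℝ :=
  Real.log (nS P s x + ε ^ 2)

end

end Vale.Agent.P284.H661.D
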