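import Vale.Agent.P284.H661.D.Defs
import Vale.Agent.P284.H174.SigW

/-!
# P284, project D (helper661): the statements

`X` compact Kähler, `f : ℂ^R → X`, `L → Ω^R` a Bogomolov sheaf, `s_0, …, s_R ∈ H⁰(L^k)`,
`F dz^k = f^*(φ^k(s))`. `d₁ = n - R + 1`.
-/

open scoped Manifold ContDiff Topology ComplexOrder ComplexConjugate Matrix
open Filter Set MeasureTheory

noncomputable section

namespace Vale.Agent.P284.H661.D

open Vale.Agent.P272.K Vale.Agent.P284.H248 Vale.Agent.P284.H206.K Vale.Agent.P284.H224.D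

/-- `(Σ_j ∂_j ∂̄_j χ) z` -/
def Lap {R : ℕ} (χ : Cm R → ℝ) (z : Cm R) : ℝ := ∑ j, (cHess χ z j j).re

/-! ### E0 (500): set-up -/

/-- the data `L, φ, s, f, F` -/
structure SetUp {n R k : ℕ} {X : Type} [TopologicalSpace X] [ChartedSpace (Cm n) X]
    {L : LineBundle n X} (φ : Mor L R) (s : Fin (R + 1) → Sec L k) (f : Cm R → X)
    (F : Cm R → Cm (R + 1)) : Prop where
  hf : ContMDiff 𝓘(ℂ, Cm R) 𝓘(ℂ, Cm n) ω f
  hF : ∀ z, AnalyticAt ℂ F z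
  pull : ∀ z i (e : Chart n X), At e (f z) → f z ∈ L.U i → ∀ a, F z a =
    (s a).f i (f z) * (φ.form i e (e (f z)) fun j => fderiv ℂ (fun z' => e (f z')) z
      (Pi.single j 1)) ^ k
  ne : F 0 ≠ 0
  surj : Function.Surjective (H451.D.LF F 0)

def E0Stmt : Prop :=
  ∀ (n N : ℕ) (X : Type) [TopologicalSpace X] [T2Space X] [CompactSpace X] [ConnectedSpace X]
    [ChartedSpace (Cm n) X] [IsManifold 𝓘(ℂ, Cm n) ω X]
    (W : Chart n X → Cm n → Matrix (Fin n) (Fin n) ℂ), IsKahler W → H174.GD.DomW N n X →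
    ¬ Special n X → ∃ (R : ℕ) (_ : 1 ≤ R) (_ : R ≤ n) (L : LineBundle n X) (φ : Mor L R) (k : ℕ)
      (_ : 1 ≤ k) (s : Fin (R + 1) → Sec L k) (f : Cm R → X) (F : Cm R → Cm (R + 1)),
      SetUp φ s f F

/-! ### E1 (470, second 366): the functions

`C₀` depends on `W`, `P`, `k` only (curvature of the metric of `L`, compactness). -/

def E1Stmt : Prop :=
  ∀ (n R k : ℕ) (X : Type) [TopologicalSpace X] [T2Space X] [CompactSpace X]
    [ChartedSpace (Cm n) X] [IsManifold 𝓘(ℂ, Cm n) ω X]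
    (W : Chart n X → Cm n → Matrix (Fin n) (Fin n) ℂ), IsKahler W →
    ∀ (L : LineBundle n X) (P : LPart L) (s : Fin (R + 1) → Sec L k),
    ∃ C₀ : ℝ, 0 < C₀ ∧ ∀ C : ℝ, C₀ ≤ C → ∀ F : Cm R → Cm (R + 1), (∀ z, AnalyticAt ℂ F z) →
      ∀ ε : ℝ, 0 < ε → ε ≤ 1 →
      -- smoothness
      JSm (n := n) (lamE ε P s F) ∧ SmoothFn (n := n) (psiE ε P s) ∧
      -- positivity
      (∀ (e : Chart n X) x, At e x → ∀ z j, (KJ C W (lamE ε P s F) e (e x) z j).PosSemidef) ∧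
      (∀ (e : Chart n X) x, At e x → ∀ z : Cm R, ∀ t ∈ Icc (0 : ℝ) 1,
        (MT C W (psiE ε P s) (lamE ε P s F) t e (e x) z).PosSemidef) ∧
      -- the upper bound
      (∀ x z, lamE ε P s F x z - psiE ε P s x ≤ Real.log (2 * (1 + nF (F z)))) ∧
      -- the comparison `M_t ≤ (C'/θ) Ψ`, `θ = exp (lam - psi) / (2 (1 + |F|²)) ∈ (0, 1]`
      (∀ (e : Chart n X) x, At e x → ∀ z : Cm R, ∀ t ∈ Icc (0 : ℝ) 1,
        (((4 * (2 * (1 + nF (F z)) * Real.exp (-(lamE ε P s F x z - psiE ε P s x))) : ℝ) : ℂ) •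
            MT C W (psiE ε P s) (lamE ε P s F) 0 e (e x) z -
          MT C W (psiE ε P s) (lamE ε P s F) t e (e x) z).PosSemidef)

/-- the lower bound of `K` near the leaf: `a₀` any index, `y_b = s_b/s_{a₀}`, `Y_b = F_b/F_{a₀}`,
`K ≥ w₁ ε / Q² Σ_b e_b e_b^*`, `e_b = d(Y_b - y_b)`, for
`w₁ = N₁/(N₁ + N₂)`, `N₁ = |s ∧ F|² + ε |s|² |F|²`, `N₂ = ε² (1 + |F|²)`,
`Q = N₁ / (|s_{a₀}|² |F_{a₀}|²)`. (451's (i) may be this one or its corollary.) -/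
def E1bStmt : Prop :=
  ∀ (n R k : ℕ) (X : Type) [TopologicalSpace X] [T2Space X] [CompactSpace X]
    [ChartedSpace (Cm n) X] [IsManifold 𝓘(ℂ, Cm n) ω X]
    (W : Chart n X → Cm n → Matrix (Fin n) (Fin n) ℂ), IsKahler W →
    ∀ (L : LineBundle n X) (P : LPart L) (s : Fin (R + 1) → Sec L k),
    ∃ C₀ : ℝ, 0 < C₀ ∧ ∀ C : ℝ, C₀ ≤ C → ∀ F : Cm R → Cm (R + 1), (∀ z, AnalyticAt ℂ F z) →
      ∀ ε : ℝ, 0 < ε → ε ≤ 1 →
      ∀ (e : Chart n X) (x : X) (i : L.ι) (z : Cm R) (a₀ : Fin (R + 1)), At e x → x ∈ L.U i →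
        (s a₀).f i x ≠ 0 → F z a₀ ≠ 0 → ∀ j : Fin R,
        let N₁ : ℝ := nW P s (F z) x + ε * nS P s x * nF (F z)
        let N₂ : ℝ := ε ^ 2 * (1 + nF (F z))
        let Q : ℝ := N₁ / (GG P (s a₀) x * ‖F z a₀‖ ^ 2)
        let ev : Fin R → Cm (n + 1) := fun b => Fin.snoc
          (fun p : Fin n => -fderiv ℂ (fun y => (s (a₀.succAbove b)).f i (e.symm y) /
            (s a₀).f i (e.symm y)) (e x) (Pi.single p 1))
          (fderiv ℂ (fun z' => F z' (a₀.succAbove b) / F z' a₀) z (Pi.single j 1))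
        (KJ C W (lamE ε P s F) e (e x) z j -
          ((N₁ / (N₁ + N₂) * (ε / Q ^ 2) : ℝ) : ℂ) •
            ∑ b, Matrix.vecMulVec (ev b) (star (ev b))).PosSemidef

/-! ### E2 (224, second 608): the energy identity, weak form -/

def E2Stmt : Prop :=
  ∀ (n R : ℕ) (X : Type) [TopologicalSpace X] [T2Space X] [CompactSpace X]
    [ChartedSpace (Cm n) X] [IsManifold 𝓘(ℂ, Cm n) ω X]
    (W : Chart n X → Cm n → Matrix (Fin n) (Fin n) ℂ), IsKahler W →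
    ∀ (C : ℝ) (psi : X → ℝ) (lam : X → Cm R → ℝ), SmoothFn (n := n) psi → JSm (n := n) lam →
    ∀ d₁ : ℕ, d₁ ≤ n → ∀ χ : Cm R → ℝ, ContDiff ℝ ∞ χ → HasCompactSupport χ →
      ∫ z, χ z * Hz d₁ C W lam z = ∫ z, Lap χ z * uz d₁ C W psi lam z

/-! ### E3 (15, seconds 619, 837): masses, continuity -/

def E3aStmt : Prop :=
  ∀ (n : ℕ) (X : Type) [TopologicalSpace X] [T2Space X] [CompactSpace X]
    [ChartedSpace (Cm n) X] [IsManifold 𝓘(ℂ, Cm n) ω X]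
    (W : Chart n X → Cm n → Matrix (Fin n) (Fin n) ℂ), IsKahler W →
    ∀ (C : ℝ) (g : X → ℝ), SmoothFn (n := n) g → ∀ d₁ : ℕ,
      INT.intX (fun e y => cfd d₁ ((C : ℂ) • W e y + cHess (fun y => g (e.symm y)) y) (W e y)) =
        INT.intX (fun e y => cfd d₁ ((C : ℂ) • W e y) (W e y))

def E3bStmt : Prop :=
  ∀ (n R : ℕ) (X : Type) [TopologicalSpace X] [T2Space X] [CompactSpace X]
    [ChartedSpace (Cm n) X] [IsManifold 𝓘(ℂ, Cm n) ω X]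
    (W : Chart n X → Cm n → Matrix (Fin n) (Fin n) ℂ), IsKahler W →
    ∀ (C : ℝ) (psi : X → ℝ) (lam : X → Cm R → ℝ), SmoothFn (n := n) psi → JSm (n := n) lam →
    ∀ d₁ : ℕ, Continuous (Hz d₁ C W lam) ∧ Continuous (uz d₁ C W psi lam) ∧
      -- `u ≤ sup (lam - psi) * mass`
      ((∀ (e : Chart n X) x, At e x → ∀ z : Cm R, ∀ t ∈ Icc (0 : ℝ) 1,
          (MT C W psi lam t e (e x) z).PosSemidef) →
        ∀ z (B : ℝ), 0 ≤ B → (∀ x, lam x z - psi x ≤ B) →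
          uz d₁ C W psi lam z ≤ B * INT.intX (fun e y => cfd d₁ ((C : ℂ) • W e y) (W e y))) ∧
      -- `H ≥ 0`
      ((∀ (e : Chart n X) x, At e x → ∀ z j, (KJ C W lam e (e x) z j).PosSemidef) →
        ∀ z, 0 ≤ Hz d₁ C W lam z)

/-! ### E4 (324): the base point -/

def E4Stmt : Prop :=
  ∀ (n R k : ℕ) (_ : 1 ≤ R) (_ : R ≤ n) (X : Type) [TopologicalSpace X] [T2Space X]
    [CompactSpace X] [ChartedSpace (Cm n) X] [IsManifold 𝓘(ℂ, Cm n) ω X]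
    (W : Chart n X → Cm n → Matrix (Fin n) (Fin n) ℂ), IsKahler W →
    ∀ (L : LineBundle n X) (P : LPart L) (s : Fin (R + 1) → Sec L k),
    ∃ C₀ : ℝ, 0 < C₀ ∧ ∀ C : ℝ, C₀ ≤ C → ∀ F : Cm R → Cm (R + 1), (∀ z, AnalyticAt ℂ F z) →
      ∀ z₀ : Cm R, Function.Surjective (H451.D.LF F z₀) →
      ∃ r₀ C' : ℝ, 0 < r₀ ∧ ∀ ε : ℝ, 0 < ε → ε ≤ 1 →
        ∫ z in Metric.ball z₀ r₀,
          max (-uz (n - R + 1) C W (psiE ε P s) (lamE ε P s F) z) 0 ≤ C'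

/-! ### E7 (691, 451; E5 = 988, E6 = 885): the leaf -/

def E7Stmt : Prop :=
  ∀ (n R k : ℕ) (_ : 1 ≤ R) (_ : R ≤ n) (_ : 1 ≤ k) (X : Type) [TopologicalSpace X] [T2Space X]
    [CompactSpace X] [ConnectedSpace X] [ChartedSpace (Cm n) X] [IsManifold 𝓘(ℂ, Cm n) ω X]
    (W : Chart n X → Cm n → Matrix (Fin n) (Fin n) ℂ), IsKahler W →
    ∀ (L : LineBundle n X) (P : LPart L) (φ : Mor L R) (s : Fin (R + 1) → Sec L k),
    ∃ C₀ : ℝ, 0 < C₀ ∧ ∀ C : ℝ, C₀ ≤ C → ∀ (f : Cm R → X) (F : Cm R → Cm (R + 1)),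
      SetUp φ s f F → ∃ c : ℝ, 0 < c ∧ ∀ᵐ z : Cm R, ∀ᶠ ε in 𝓝[>] (0 : ℝ),
        c * nF (F z) ^ (1 / ((k : ℝ) * R)) ≤ Hz (n - R + 1) C W (lamE ε P s F) z

/-! ### E8 (551): the end -/

def E8Stmt : Prop :=
  ∀ (R m : ℕ) (_ : 1 ≤ R) (F : Cm R → Cm m), (∀ z, AnalyticAt ℂ F z) → (∃ z, F z ≠ 0) →
    ∀ (α c C r₀ : ℝ) (z₀ : Cm R) (u H : ℕ → Cm R → ℝ), 0 < α → 0 < c → 0 < r₀ →
    (∀ N, Continuous (u N)) → (∀ N, Continuous (H N)) → (∀ N z, 0 ≤ H N z) →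
    (∀ N (χ : Cm R → ℝ), ContDiff ℝ ∞ χ → HasCompactSupport χ →
      ∫ z, χ z * H N z = ∫ z, Lap χ z * u N z) →
    (∀ N z, u N z ≤ C * (1 + Real.log (2 * (1 + nF (F z))))) →
    (∀ N, ∫ z in Metric.ball z₀ r₀, max (-u N z) 0 ≤ C) →
    (∀ᵐ z : Cm R, ∀ᶠ N in atTop, c * nF (F z) ^ α ≤ H N z) → False

/-! ### the result -/

def DStmt : Prop :=
  ∀ (n N : ℕ) (X : Type) [TopologicalSpace X] [T2Space X] [CompactSpace X]
    [ConnectedSpace X] [ChartedSpace (Cm n) X] [IsManifold 𝓘(ℂ, Cm n) ω X]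
    (W : Chart n X → Cm n → Matrix (Fin n) (Fin n) ℂ), IsKahler W → H174.GD.DomW N n X →
    Special n X

/-- the assembly -/
theorem dStmt_of (h0 : E0Stmt) (h1 : E1Stmt) (h2 : E2Stmt) (h3 : E3bStmt) (h4 : E4Stmt)
    (h7 : E7Stmt) (h8 : E8Stmt) : DStmt := by
  intro n N X _ _ _ _ _ _ W hW hD
  by_contra hS
  obtain ⟨R, hR, hRn, L, φ, k, hk, s, f, F, hsu⟩ := h0 n N X W hW hD hS
  obtain ⟨P⟩ := exists_lpart L
  obtain ⟨C₁, hC₁, g1⟩ := h1 n R k X W hW L P s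
  obtain ⟨C₄, hC₄, g4⟩ := h4 n R k hR hRn X W hW L P s
  obtain ⟨C₇, hC₇, g7⟩ := h7 n R k hR hRn hk X W hW L P φ s
  set C : ℝ := max C₁ (max C₄ C₇) with hC
  have hc1 : C₁ ≤ C := le_max_left _ _
  have hc4 : C₄ ≤ C := (le_max_left _ _).trans (le_max_right _ _)
  have hc7 : C₇ ≤ C := (le_max_right _ _).trans (le_max_right _ _)
  obtain ⟨r₀, C', hr₀, hlow⟩ := g4 C hc4 F hsu.hF 0 hsu.surj
  obtain ⟨c, hc, hlim⟩ := g7 C hc7 f F hsu
  set ε : ℕ → ℝ := fun N => 1 / ((N : ℝ) + 1) with hε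
  have hε0 : ∀ N, 0 < ε N := fun N => by positivity
  have hε1 : ∀ N, ε N ≤ 1 := fun N => by
    rw [hε]
    simp only
    rw [div_le_one (by positivity)]
    have : (0 : ℝ) ≤ N := Nat.cast_nonneg N
    linarith
  have hεt : Tendsto ε atTop (𝓝[>] 0) := by
    refine tendsto_nhdsWithin_iff.2 ⟨tendsto_one_div_add_atTop_nhds_zero_nat, ?_⟩
    exact Eventually.of_forall hε0
  set u : ℕ → Cm R → ℝ := fun N =>
    uz (n - R + 1) C W (psiE (ε N) P s) (lamE (ε N) P s F) with hu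
  set H : ℕ → Cm R → ℝ := fun N => Hz (n - R + 1) C W (lamE (ε N) P s F) with hH
  have e1 := fun N => g1 C hc1 F hsu.hF (ε N) (hε0 N) (hε1 N)
  have e3 := fun N => h3 n R X W hW C (psiE (ε N) P s) (lamE (ε N) P s F) (e1 N).2.1 (e1 N).1
    (n - R + 1)
  set V : ℝ := INT.intX (fun e y => cfd (n - R + 1) ((C : ℂ) • W e y) (W e y)) with hV
  have hup : ∀ N z, u N z ≤ max |V| |C'| * (1 + Real.log (2 * (1 + nF (F z)))) := by
    intro N z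
    have hnF : 0 ≤ nF (F z) := Finset.sum_nonneg fun a _ => by positivity
    have hlog : 0 ≤ Real.log (2 * (1 + nF (F z))) := Real.log_nonneg (by linarith)
    have a1 := (e3 N).2.2.1 (e1 N).2.2.2.1 z (Real.log (2 * (1 + nF (F z)))) hlog
      fun x => (e1 N).2.2.2.2.1 x z
    refine a1.trans ?_
    rw [mul_comm]
    have a2 : V ≤ max |V| |C'| := (le_abs_self V).trans (le_max_left _ _)
    have a3 : 0 ≤ max |V| |C'| := (abs_nonneg V).trans (le_max_left _ _)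
    calc V * Real.log (2 * (1 + nF (F z))) ≤ max |V| |C'| * Real.log (2 * (1 + nF (F z))) :=
          mul_le_mul_of_nonneg_right a2 hlog
      _ ≤ _ := mul_le_mul_of_nonneg_left (by linarith) a3
  refine h8 R (R + 1) hR F hsu.hF ⟨0, hsu.ne⟩ (1 / ((k : ℝ) * R)) c (max |V| |C'|) r₀ 0 u H
    ?_ hc hr₀ (fun N => (e3 N).2.1) (fun N => (e3 N).1)
    (fun N => (e3 N).2.2.2 (e1 N).2.2.1) (fun N χ hχ hχc => ?_) hup (fun N => ?_) ?_
  · have : (0 : ℝ) < k := by exact_mod_cast hk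
    have : (0 : ℝ) < R := by exact_mod_cast hR
    positivity
  · exact h2 n R X W hW C (psiE (ε N) P s) (lamE (ε N) P s F) (e1 N).2.1 (e1 N).1 (n - R + 1)
      (by omega) χ hχ hχc
  · exact (hlow (ε N) (hε0 N) (hε1 N)).trans ((le_abs_self C').trans (le_max_right _ _))
  · filter_upwards [hlim] with z hz
    exact hεt.eventually hz

end Vale.Agent.P284.H661.D
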