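import Vale.Agent.P284.H661.D.Spec
import Vale.Agent.P284.H500.D.E0
import Vale.Agent.P284.H470.D.E1
import Vale.Agent.P284.H451.D.KLow
import Vale.Agent.P284.H451.D.Leaf
import Vale.Agent.P284.H224.D.E2
import Vale.Agent.P284.H15.D.Mass
import Vale.Agent.P284.H324.D.E4
import Vale.Agent.P284.H691.D.E7
import Vale.Agent.P284.H551.E.E8

/-!
# P284, project D (helper661): the main theorem

**A connected compact Kähler manifold `X` with a holomorphic map `ℂᴺ → X` of rank `dim X`
somewhere is special in the sense of Campana: every Bogomolov sheaf of `X` is trivial.**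

E0 helper500, E1 helper470, E1b and the leaf helper451, E2 helper224 and helper608,
E3 helper15 (with helper619), E4 helper324, E5 helper988, E6 helper885, E7 helper691, E8 helper551.
-/

noncomputable section

namespace Vale.Agent.P284.H661.D

theorem e4 : E4Stmt := H324.D.e4_of H470.D.e1 H15.D.e3a

theorem e7 : E7Stmt := H691.D.e7_of_leaf H470.D.e1 H451.D.e1b H451.D.leaf

/-- **dominated by `ℂᴺ` implies special**, compact Kähler -/
theorem special_of_domWK : DStmt :=
  dStmt_of H500.D.e0 H470.D.e1 H224.D.e2 H15.D.e3b e4 e7 H551.E.e8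

end Vale.Agent.P284.H661.D
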